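import Vale.Agent.P061.Complete

namespace Vale.Agent.Results.P061.LowerFour

open Vale.Agent.P061

theorem result :
    (∀ k : ℕ, 1 ≤ k →
      ∃ (V E : Type) (_ : Fintype V) (_ : Fintype E) (ends : E → Sym2 V),
        (∀ e, ¬ (ends e).IsDiag) ∧ 2 ≤ Fintype.card V ∧ EdgeConn ends k ∧
        ∀ T : Finset E, IsSpanningTree ends T → ∀ α : ℝ, IsThin ends T α →
          4 * (k : ℝ) / (k + 1) ^ 2 ≤ α) ∧
    ∀ (C : ℝ) (K : ℕ), ThinTreesFrom C K → 4 ≤ C := by
  classical
  refine ⟨fun k hk => ⟨Fin (k + 1), CompleteEdges (k + 1), inferInstance, inferInstance,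
    completeEnds (k + 1), completeEnds_not_isDiag _, by simp; omega, edgeConn_complete k,
    complete_not_thinner k hk⟩, ?_⟩
  intro C K h
  by_contra hlt
  push Not at hlt
  obtain ⟨m, hm⟩ := exists_nat_gt (8 / (4 - C))
  set k := m + K + 1 with hk
  obtain ⟨T, hT, hthin⟩ := h k (by omega) (by omega) (Fin (k + 1)) (CompleteEdges (k + 1))
    (completeEnds (k + 1)) (completeEnds_not_isDiag _) (by simp; omega) (edgeConn_complete k)
  have h4 := complete_not_thinner k (by omega) T hT _ hthin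
  have hkm : (m : ℝ) ≤ k := by exact_mod_cast (by omega : m ≤ k)
  have hk1 : (1 : ℝ) ≤ k := by exact_mod_cast (by omega : 1 ≤ k)
  rw [div_lt_iff₀ (by linarith)] at hm
  rw [div_le_div_iff₀ (by positivity) (by linarith)] at h4
  nlinarith [mul_le_mul_of_nonneg_right hkm (by linarith : (0 : ℝ) ≤ 4 - C), sq_nonneg (k : ℝ)]

end Vale.Agent.Results.P061.LowerFour
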