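import Vale.Agent.P061.SSC.Assemble

namespace Vale.Agent.Results.P061.SmallSetConductance

open Finset Vale.Agent.P061 Vale.Agent.P061.Dense Vale.Agent.P061.SSC

theorem result :
    (∀ a b : ℕ, ∃ C : ℝ, ∀ k : ℕ, 1 ≤ k →
      ∀ (V E : Type) [Fintype V] [Fintype E] (ends : E → Sym2 V),
        (∀ e, ¬ (ends e).IsDiag) → 2 ≤ Fintype.card V → EdgeConn ends k →
        (∀ S : Finset V, S.Nonempty →
          b * ∑ v ∈ S, cutSize ends Finset.univ {v} ≤ ∑ v : V, cutSize ends Finset.univ {v} →
          ∑ v ∈ S, cutSize ends Finset.univ {v} ≤ a * cutSize ends Finset.univ S) →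
          ∃ T : Finset E, IsSpanningTree ends T ∧ IsThin ends T (C / k)) ∧
    (∀ L : ℕ, ∃ C : ℝ, ∀ (k μ : ℕ), 1 ≤ k →
      ∀ (V E : Type) [Fintype V] [Fintype E] (ends : E → Sym2 V),
        (∀ e, ¬ (ends e).IsDiag) → 2 ≤ Fintype.card V → EdgeConn ends k →
        (∀ x y : V, Nat.card {e : E // ends e = s(x, y)} ≤ μ) →
        μ * Fintype.card V ≤ L * k →
          ∃ T : Finset E, IsSpanningTree ends T ∧ IsThin ends T (C / k)) := by
  have hdeg : ∀ (V E : Type) [Fintype V] [Fintype E] (ends : E → Sym2 V),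
      (∀ e, ¬ (ends e).IsDiag) → ∀ v : V, cutSize ends Finset.univ {v} = degG ends v := by
    intro V E _ _ ends hl v
    classical
    have h0 : mult ends v v = 0 := by
      simp only [mult, card_eq_zero, filter_eq_empty_iff]
      intro e _ he
      exact hl e (by rw [he]; simp)
    rw [cutSize_eq_between]
    simp only [degG, Dense.between, sum_singleton]
    rw [← sum_add_sum_compl {v} (fun q => mult ends v q), sum_singleton, h0, zero_add]
  have main : ∀ a b : ℕ, ∃ C : ℝ, ∀ k : ℕ, 1 ≤ k →
      ∀ (V E : Type) [Fintype V] [Fintype E] (ends : E → Sym2 V),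
        (∀ e, ¬ (ends e).IsDiag) → 2 ≤ Fintype.card V → EdgeConn ends k →
        (∀ S : Finset V, S.Nonempty →
          b * ∑ v ∈ S, cutSize ends Finset.univ {v} ≤ ∑ v : V, cutSize ends Finset.univ {v} →
          ∑ v ∈ S, cutSize ends Finset.univ {v} ≤ a * cutSize ends Finset.univ S) →
          ∃ T : Finset E, IsSpanningTree ends T ∧ IsThin ends T (C / k) := by
    intro a b
    refine ⟨(sscConst (a + 1) (b + 2) : ℝ), fun k hk V E _ _ ends hl hV hc hssc => ?_⟩
    classical
    have hmass : ∀ X : Finset V, ∑ v ∈ X, cutSize ends Finset.univ {v} = mass (degG ends) X :=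
      fun X => sum_congr rfl fun v _ => hdeg V E ends hl v
    have hssc' : ∀ X : Finset V, (b + 2) * mass (degG ends) X ≤ mass (degG ends) univ →
        mass (degG ends) X ≤ (a + 1) * between (mult ends) X Xᶜ := by
      intro X hX
      rcases X.eq_empty_or_nonempty with rfl | hne
      · simp [mass]
      · rw [← cutSize_eq_between, ← hmass]
        refine (hssc X hne ?_).trans (Nat.mul_le_mul_right _ (by omega))
        rw [hmass, hmass]
        exact le_trans (Nat.mul_le_mul_right _ (by omega)) hX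
    obtain ⟨T, hT, hthin⟩ := exists_thin_of_ssc ends hl k (a + 1) (b + 2) hk (by omega)
      (by omega) hV hc hssc'
    refine ⟨T, hT, fun S hS1 hS2 => ?_⟩
    have h := hthin S hS1 hS2
    have h' : (k : ℝ) * cutSize ends T S ≤
        sscConst (a + 1) (b + 2) * cutSize ends Finset.univ S := by exact_mod_cast h
    have hk' : (0 : ℝ) < k := by exact_mod_cast hk
    rw [div_mul_eq_mul_div, le_div_iff₀ hk']
    linarith
  refine ⟨main, fun L => ?_⟩
  obtain ⟨C, hC⟩ := main (2 * (L + 1)) (2 * (L + 1) * (L + 1))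
  refine ⟨C, fun k μ hk V E _ _ ends hl hV hc hm hμn => ?_⟩
  classical
  have hm' : ∀ x y, mult ends x y ≤ μ := by
    intro x y
    refine le_of_eq_of_le ?_ (hm x y)
    rw [Nat.card_eq_fintype_card, Fintype.card_subtype]
    simp only [mult]
  refine hC k hk V E ends hl hV hc ?_
  intro S _ hS
  set n := Fintype.card V with hn
  have hub : ∀ v, degG ends v ≤ (L + 1) * k := by
    intro v
    refine le_trans ?_ (hμn.trans (Nat.mul_le_mul_right _ (by omega)))
    refine (sum_le_card_nsmul _ _ μ fun q _ => hm' v q).trans ?_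
    simp [hn, mul_comm]
  have hlb : ∀ v, k ≤ degG ends v := le_mult_sum ends k hc hV
  have h1 : S.card * k ≤ ∑ v ∈ S, cutSize ends Finset.univ {v} := by
    rw [← smul_eq_mul]
    exact card_nsmul_le_sum _ _ _ fun v _ => by rw [hdeg V E ends hl v]; exact hlb v
  have h2 : ∑ v ∈ S, cutSize ends Finset.univ {v} ≤ S.card * ((L + 1) * k) := by
    rw [← smul_eq_mul]
    exact sum_le_card_nsmul _ _ _ fun v _ => by rw [hdeg V E ends hl v]; exact hub v
  have h3 : ∑ v : V, cutSize ends Finset.univ {v} ≤ n * ((L + 1) * k) := by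
    rw [← smul_eq_mul, hn, ← card_univ]
    exact sum_le_card_nsmul _ _ _ fun v _ => by rw [hdeg V E ends hl v]; exact hub v
  have hsmall : 2 * (L + 1) * S.card ≤ n := by
    refine Nat.le_of_mul_le_mul_right (?_ : _ * ((L + 1) * k) ≤ n * ((L + 1) * k)) (by positivity)
    calc 2 * (L + 1) * S.card * ((L + 1) * k)
        = 2 * (L + 1) * (L + 1) * (S.card * k) := by ring
      _ ≤ 2 * (L + 1) * (L + 1) * ∑ v ∈ S, cutSize ends Finset.univ {v} :=
          Nat.mul_le_mul_left _ h1
      _ ≤ _ := hS.trans h3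
  have h4 : S.card * k ≤ between (mult ends) S S + between (mult ends) S Sᶜ := by
    rw [← between_union_right _ _ _ _ disjoint_compl_right, union_compl, Dense.between,
      ← smul_eq_mul]
    exact card_nsmul_le_sum _ _ _ fun v _ => hlb v
  have h5 : between (mult ends) S S * 2 ≤ S.card * k := by
    refine le_trans (Nat.mul_le_mul_right _ (between_le_mul _ μ hm' S S)) ?_
    rw [show S.card * S.card * μ * 2 = S.card * (2 * μ * S.card) by ring]
    refine Nat.mul_le_mul_left _ ?_
    refine Nat.le_of_mul_le_mul_left (?_ : (L + 1) * _ ≤ (L + 1) * _) (by omega)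
    calc (L + 1) * (2 * μ * S.card) = μ * (2 * (L + 1) * S.card) := by ring
      _ ≤ μ * n := Nat.mul_le_mul_left _ hsmall
      _ ≤ L * k := hμn
      _ ≤ (L + 1) * k := Nat.mul_le_mul_right _ (by omega)
  have h6 : S.card * k ≤ 2 * between (mult ends) S Sᶜ := by omega
  rw [cutSize_eq_between ends S]
  calc ∑ v ∈ S, cutSize ends Finset.univ {v} ≤ S.card * ((L + 1) * k) := h2
    _ = (L + 1) * (S.card * k) := by ring
    _ ≤ (L + 1) * (2 * between (mult ends) S Sᶜ) := Nat.mul_le_mul_left _ h6
    _ = 2 * (L + 1) * between (mult ends) S Sᶜ := by ring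

end Vale.Agent.Results.P061.SmallSetConductance
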